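import Mathlib

/-! The real-variable part: the system satisfied by the moments of a fixed point. The small
parameter is `1/4`. -/

set_option autoImplicit false

namespace Crest.Agent.R205.Arc

open Real

/-- The half-angle system. -/
theorem half_angle {α β xi xj xk : ℝ}
    (h1 : cos (2 * α) * xi + sin (2 * α) * xk = xi)
    (h2 : cos (2 * β) * xj + sin (2 * β) * xk = xj)
    (h3 : cos (2 * α) * xk - sin (2 * α) * xi = cos (2 * β) * xk - sin (2 * β) * xj) :
    (sin α = 0 ∧ sin β = 0) ∨ (xk * cos α = sin α * xi ∧ xk * cos β = sin β * xj) := by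
  have ha := sin_sq_add_cos_sq α
  have hb := sin_sq_add_cos_sq β
  rw [cos_two_mul, sin_two_mul] at h1 h2 h3
  rw [cos_two_mul, sin_two_mul] at h3
  have e1 : sin α * (cos α * xk - sin α * xi) = 0 := by
    linear_combination (1 / 2 : ℝ) * h1 - xi * ha
  have e2 : sin β * (cos β * xk - sin β * xj) = 0 := by
    linear_combination (1 / 2 : ℝ) * h2 - xj * hb
  have e3 : sin α * (cos α * xi + sin α * xk) = sin β * (cos β * xj + sin β * xk) := by
    linear_combination (-1 / 2 : ℝ) * h3 + xk * ha - xk * hb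
  by_cases sa : sin α = 0
  · by_cases sb : sin β = 0
    · exact Or.inl ⟨sa, sb⟩
    · right
      have e2' := (mul_eq_zero.mp e2).resolve_left sb
      rw [sa, zero_mul] at e3
      have e3' := (mul_eq_zero.mp e3.symm).resolve_left sb
      have hk : xk = 0 := by
        linear_combination cos β * e2' + sin β * e3' - xk * hb
      exact ⟨by rw [hk, sa]; ring, by linear_combination e2'⟩
  · have e1' := (mul_eq_zero.mp e1).resolve_left sa
    by_cases sb : sin β = 0
    · right
      rw [sb, zero_mul] at e3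
      have e3' := (mul_eq_zero.mp e3).resolve_left sa
      have hk : xk = 0 := by
        linear_combination cos α * e1' + sin α * e3' - xk * ha
      exact ⟨by linear_combination e1', by rw [hk, sb]; ring⟩
    · have e2' := (mul_eq_zero.mp e2).resolve_left sb
      exact Or.inr ⟨by linear_combination e1', by linear_combination e2'⟩

/-- The angle occurring in the flows. -/
noncomputable def ang (y x : ℝ) : ℝ := (1 / 4) * (1 + x) / (1 + (1 / 4) ^ 2 * y ^ 2)

theorem ang_nonneg {x : ℝ} (hx : -1 ≤ x) (y : ℝ) : 0 ≤ ang y x := by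
  unfold ang; apply div_nonneg <;> nlinarith [sq_nonneg y]

theorem ang_pos {x : ℝ} (hx : -1 < x) (y : ℝ) : 0 < ang y x := by
  unfold ang; apply div_pos <;> nlinarith [sq_nonneg y]

theorem ang_le {x : ℝ} (hx : -1 ≤ x) (y : ℝ) : ang y x ≤ (1 / 4) * (1 + x) := by
  unfold ang; apply div_le_self <;> nlinarith [sq_nonneg y]

theorem pi_div_two_gt : (3 : ℝ) / 2 < π / 2 := by
  have := Real.pi_gt_three; linarith

theorem tan_le_of_le {x : ℝ} (h0 : 0 ≤ x) (h1 : x ≤ 1 / 4) : tan x ≤ (32 / 31) * x := by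
  have hc : 31 / 32 ≤ cos x := by
    have := Real.one_sub_sq_div_two_le_cos (x := x)
    nlinarith
  have hs : sin x ≤ x := Real.sin_le h0
  rw [tan_eq_sin_div_cos, div_le_iff₀ (by linarith)]
  nlinarith


theorem tan_pos' {x : ℝ} (h0 : 0 < x) (h1 : x ≤ 1 / 2) : 0 < tan x :=
  Real.tan_pos_of_pos_of_lt_pi_div_two h0 (by linarith [pi_div_two_gt])

theorem tan_lt' {x y : ℝ} (h0 : 0 ≤ x) (h : x < y) (h1 : y ≤ 1 / 2) : tan x < tan y :=
  Real.tan_lt_tan_of_nonneg_of_lt_pi_div_two h0 (by linarith [pi_div_two_gt]) h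

theorem mono_aux {m c c' : ℝ} (hm : 0 < m) (hm' : m ≤ 1 / 4) (hc' : 0 < c') (hcc : c' < c)
    (hc : c ≤ 1) : c' * tan (m * (1 + c)) < c * tan (m * (1 + c')) := by
  have hA : 0 < m * (1 + c') := by positivity
  have hA2 : m * (1 + c') ≤ 1 / 2 := by nlinarith
  have hB : 0 < m * (1 + c) := by nlinarith
  have hB2 : m * (1 + c) ≤ 1 / 2 := by nlinarith
  have cA : 7 / 8 ≤ cos (m * (1 + c')) := by
    have := Real.one_sub_sq_div_two_le_cos (x := m * (1 + c'))
    nlinarith
  have cB : 7 / 8 ≤ cos (m * (1 + c)) := by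
    have := Real.one_sub_sq_div_two_le_cos (x := m * (1 + c))
    nlinarith
  have sA : (15 / 16) * (m * (1 + c')) ≤ sin (m * (1 + c')) := by
    have := Real.sin_gt_sub_cube hA
    have h2 : (m * (1 + c')) ^ 3 / 6 ≤ (1 / 16) * (m * (1 + c')) := by
      have : (m * (1 + c')) ^ 2 ≤ 1 / 4 := by nlinarith
      nlinarith
    linarith
  have hd : sin (m * (1 + c) - m * (1 + c')) ≤ m * (c - c') := by
    have h := Real.sin_le (x := m * (c - c')) (by nlinarith)
    have e : m * (1 + c) - m * (1 + c') = m * (c - c') := by ring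
    rw [e]; exact h
  rw [sin_sub] at hd
  have key : 0 < c * (sin (m * (1 + c')) * cos (m * (1 + c)))
      - c' * (sin (m * (1 + c)) * cos (m * (1 + c'))) := by
    have e : c * (sin (m * (1 + c')) * cos (m * (1 + c)))
      - c' * (sin (m * (1 + c)) * cos (m * (1 + c'))) =
      (c - c') * (sin (m * (1 + c')) * cos (m * (1 + c)))
       - c' * (sin (m * (1 + c)) * cos (m * (1 + c')) - cos (m * (1 + c)) * sin (m * (1 + c'))) := by
      ring
    rw [e]
    have h1 : c' * (sin (m * (1 + c)) * cos (m * (1 + c')) - cos (m * (1 + c)) * sin (m * (1 + c')))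
        ≤ c' * (m * (c - c')) := mul_le_mul_of_nonneg_left hd hc'.le
    have h2 : (15 / 16) * (m * (1 + c')) * (7 / 8) ≤ sin (m * (1 + c')) * cos (m * (1 + c)) := by
      apply mul_le_mul sA cB (by norm_num)
      have := sA; nlinarith
    have h3 : (c - c') * ((15 / 16) * (m * (1 + c')) * (7 / 8)) ≤
        (c - c') * (sin (m * (1 + c')) * cos (m * (1 + c))) :=
      mul_le_mul_of_nonneg_left h2 (by linarith)
    have h4 : 0 < m * (c - c') := mul_pos hm (by linarith)
    nlinarith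
  rw [tan_eq_sin_div_cos, tan_eq_sin_div_cos, ← mul_div_assoc, ← mul_div_assoc,
    div_lt_div_iff₀ (by linarith) (by linarith)]
  nlinarith

theorem lt_contra {a b c c' k : ℝ} (h2 : k = c * tan (ang a c'))
    (h3 : k = c' * tan (ang b c)) (h4 : a ^ 2 + c ^ 2 + k ^ 2 = 1)
    (h5 : b ^ 2 + c' ^ 2 + k ^ 2 = 1) (hc' : 0 < c') (hlt : c' < c) : False := by
  have hc1 : c ≤ 1 := by nlinarith [sq_nonneg a, sq_nonneg k]
  have hab : a ^ 2 < b ^ 2 := by nlinarith
  set m := (1 / 4 : ℝ) / (1 + (1 / 4) ^ 2 * a ^ 2) with hm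
  have hm0 : 0 < m := by positivity
  have hm1 : m ≤ 1 / 4 := by
    rw [hm]; apply div_le_self <;> nlinarith [sq_nonneg a]
  have e1 : ang a c' = m * (1 + c') := by
    rw [hm]; unfold ang; ring
  have e2 : ang b c < m * (1 + c) := by
    rw [hm]; unfold ang
    have : (1 / 4 : ℝ) / (1 + (1 / 4) ^ 2 * a ^ 2) * (1 + c)
        = (1 / 4) * (1 + c) / (1 + (1 / 4) ^ 2 * a ^ 2) := by ring
    rw [this]
    apply div_lt_div_of_pos_left <;> nlinarith [sq_nonneg a]
  have h6 : tan (ang b c) < tan (m * (1 + c)) :=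
    tan_lt' (ang_nonneg (by linarith) _) e2 (by nlinarith)
  have h7 := mono_aux hm0 hm1 hc' hlt hc1
  rw [e1] at h2
  have h8 : c' * tan (ang b c) < c' * tan (m * (1 + c)) := mul_lt_mul_of_pos_left h6 hc'
  linarith

set_option maxHeartbeats 2000000 in
/-- Classification of the solutions of the moment system. -/
theorem main_real {a b c c' k : ℝ} (h1 : k = (1 / 4) * a * b) (h2 : k = c * tan (ang a c'))
    (h3 : k = c' * tan (ang b c)) (h4 : a ^ 2 + c ^ 2 + k ^ 2 = 1)
    (h5 : b ^ 2 + c' ^ 2 + k ^ 2 = 1) :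
    (a = 0 ∧ b = 0 ∧ c = -1 ∧ c' = -1) ∨ (0 < c ∧ c' = c ∧ b = a ∧ a ≠ 0) := by
  have hc0 : -1 ≤ c := by nlinarith [sq_nonneg a, sq_nonneg k]
  have hc1 : c ≤ 1 := by nlinarith [sq_nonneg a, sq_nonneg k]
  have hc'0 : -1 ≤ c' := by nlinarith [sq_nonneg b, sq_nonneg k]
  have hc'1 : c' ≤ 1 := by nlinarith [sq_nonneg b, sq_nonneg k]
  have hX1 : ang a c' ≤ 1 / 2 := (ang_le hc'0 a).trans (by linarith)
  have hY1 : ang b c ≤ 1 / 2 := (ang_le hc0 b).trans (by linarith)
  rcases eq_or_lt_of_le hc0 with hc | hc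
  · -- c = -1
    left
    have ha : a = 0 := by
      have : a ^ 2 = 0 := by nlinarith [sq_nonneg a, sq_nonneg k]
      exact pow_eq_zero_iff (two_ne_zero) |>.mp this
    have hk : k = 0 := by rw [h1, ha]; ring
    have hc' : c' = -1 := by
      by_contra hne
      have : 0 < tan (ang a c') := tan_pos' (ang_pos (lt_of_le_of_ne hc'0 (Ne.symm hne)) a) hX1
      rw [hk, ← hc] at h2
      linarith
    have hb : b = 0 := by
      rw [hc', hk] at h5
      have : b ^ 2 = 0 := by linarith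
      exact pow_eq_zero_iff (two_ne_zero) |>.mp this
    exact ⟨ha, hb, hc.symm, hc'⟩
  rcases eq_or_lt_of_le hc'0 with hc' | hc'
  · exfalso
    have hb : b = 0 := by
      have : b ^ 2 = 0 := by nlinarith [sq_nonneg b, sq_nonneg k]
      exact pow_eq_zero_iff (two_ne_zero) |>.mp this
    have hk : k = 0 := by rw [h1, hb]; ring
    have : 0 < tan (ang b c) := tan_pos' (ang_pos hc b) hY1
    rw [hk, ← hc'] at h3
    linarith
  have hX0 := ang_pos hc' a
  have hY0 := ang_pos hc b
  have htX := tan_pos' hX0 hX1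
  have htY := tan_pos' hY0 hY1
  have hA : a ^ 2 * (1 + (1 / 4) ^ 2 * b ^ 2) = (1 - c) * (1 + c) := by
    rw [h1] at h4; linear_combination h4
  have hB : b ^ 2 * (1 + (1 / 4) ^ 2 * a ^ 2) = (1 - c') * (1 + c') := by
    rw [h1] at h5; linear_combination h5
  rcases lt_trichotomy k 0 with hk | hk | hk
  · -- k < 0
    exfalso
    have hcn : c < 0 := by
      by_contra h; push Not at h
      have := mul_nonneg h htX.le; linarith
    have hcn' : c' < 0 := by
      by_contra h; push Not at h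
      have := mul_nonneg h htY.le; linarith
    have t1 : tan (ang a c') ≤ (32 / 31) * ang a c' :=
      tan_le_of_le hX0.le ((ang_le hc'0 a).trans (by linarith))
    have t2 : tan (ang b c) ≤ (32 / 31) * ang b c :=
      tan_le_of_le hY0.le ((ang_le hc0 b).trans (by linarith))
    have h6 : k ^ 2 = (c * c') * (tan (ang a c') * tan (ang b c)) := by
      calc k ^ 2 = k * k := by ring
        _ = (c * tan (ang a c')) * (c' * tan (ang b c)) := by rw [← h2, ← h3]
        _ = _ := by ring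
    have hcc : 0 < c * c' := mul_pos_of_neg_of_neg hcn hcn'
    have h7 : tan (ang a c') * tan (ang b c) ≤ ((32 / 31) * ang a c') * ((32 / 31) * ang b c) :=
      mul_le_mul t1 t2 htY.le (by linarith)
    have h8 : k ^ 2 ≤ (c * c') * (((32 / 31) * ang a c') * ((32 / 31) * ang b c)) := by
      rw [h6]; exact mul_le_mul_of_nonneg_left h7 hcc.le
    have hpa : 0 < 1 + (1 / 4 : ℝ) ^ 2 * a ^ 2 := by positivity
    have hpb : 0 < 1 + (1 / 4 : ℝ) ^ 2 * b ^ 2 := by positivity
    have h9 : ang a c' * (1 + (1 / 4) ^ 2 * a ^ 2) = (1 / 4) * (1 + c') := by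
      unfold ang; field_simp
    have h10 : ang b c * (1 + (1 / 4) ^ 2 * b ^ 2) = (1 / 4) * (1 + c) := by
      unfold ang; field_simp
    have h11 : k ^ 2 * ((1 + (1 / 4) ^ 2 * a ^ 2) * (1 + (1 / 4) ^ 2 * b ^ 2)) ≤
        (c * c') * (32 / 31) ^ 2 * (((1 / 4) * (1 + c')) * ((1 / 4) * (1 + c))) := by
      have := mul_le_mul_of_nonneg_right h8 (mul_pos hpa hpb).le
      calc _ ≤ _ := this
        _ = (c * c') * (32 / 31) ^ 2 * ((ang a c' * (1 + (1 / 4) ^ 2 * a ^ 2)) *
              (ang b c * (1 + (1 / 4) ^ 2 * b ^ 2))) := by ring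
        _ = _ := by rw [h9, h10]
    have h12 : k ^ 2 * ((1 + (1 / 4) ^ 2 * a ^ 2) * (1 + (1 / 4) ^ 2 * b ^ 2)) =
        (1 / 4) ^ 2 * (((1 - c) * (1 + c)) * ((1 - c') * (1 + c'))) := by
      rw [← hA, ← hB, h1]; ring
    rw [h12] at h11
    have hq : 0 < (1 + c) * (1 + c') := mul_pos (by linarith) (by linarith)
    have h13 : (1 - c) * (1 - c') ≤ (c * c') * (32 / 31) ^ 2 := by
      by_contra hcon
      push Not at hcon
      have := mul_lt_mul_of_pos_right hcon hq
      nlinarith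
    nlinarith
  · -- k = 0
    exfalso
    have hcz : c = 0 := by
      have : c * tan (ang a c') = 0 := by rw [← h2, hk]
      exact (mul_eq_zero.mp this).resolve_right htX.ne'
    have hcz' : c' = 0 := by
      have : c' * tan (ang b c) = 0 := by rw [← h3, hk]
      exact (mul_eq_zero.mp this).resolve_right htY.ne'
    have ha : a ^ 2 = 1 := by rw [hcz, hk] at h4; linarith
    have hb : b ^ 2 = 1 := by rw [hcz', hk] at h5; linarith
    have : k ^ 2 = 1 / 16 := by rw [h1]; nlinarith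
    rw [hk] at this; norm_num at this
  · -- k > 0
    right
    have hcp : 0 < c := by
      by_contra h; push Not at h
      have := mul_nonpos_of_nonpos_of_nonneg h htX.le; linarith
    have hcp' : 0 < c' := by
      by_contra h; push Not at h
      have := mul_nonpos_of_nonpos_of_nonneg h htY.le; linarith
    have hcc : c' = c := by
      rcases lt_trichotomy c' c with h | h | h
      · exact (lt_contra h2 h3 h4 h5 hcp' h).elim
      · exact h
      · exact (lt_contra h3 h2 h5 h4 hcp h).elim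
    have hab : a * b > 0 := by nlinarith
    have hsq : a ^ 2 = b ^ 2 := by rw [hcc] at h5; linarith
    have hne : a ≠ 0 := by
      rintro rfl; simp at hab
    have : b = a := by
      rcases sq_eq_sq_iff_eq_or_eq_neg.mp hsq with h | h
      · exact h.symm
      · rw [h] at hab; nlinarith [sq_nonneg b]
    exact ⟨hcp, hcc, this, hne⟩

theorem uniq_aux {a1 c1 a2 c2 : ℝ} (h1 : (1 / 4) * a1 ^ 2 = c1 * tan (ang a1 c1))
    (g1 : a1 ^ 2 + c1 ^ 2 + ((1 / 4) * a1 ^ 2) ^ 2 = 1) (p1 : 0 < c1)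
    (h2 : (1 / 4) * a2 ^ 2 = c2 * tan (ang a2 c2))
    (g2 : a2 ^ 2 + c2 ^ 2 + ((1 / 4) * a2 ^ 2) ^ 2 = 1) (p2 : 0 < c2) (hlt : c1 < c2) : False := by
  have hc2 : c2 ≤ 1 := by nlinarith [sq_nonneg a2, sq_nonneg ((1 / 4) * a2 ^ 2)]
  have hA : a2 ^ 2 < a1 ^ 2 := by
    by_contra h; push Not at h
    nlinarith [sq_nonneg a1, sq_nonneg a2]
  have e2 : ang a1 c1 < ang a2 c2 := by
    unfold ang
    apply div_lt_div₀ <;> nlinarith [sq_nonneg a1, sq_nonneg a2]
  have h6 : tan (ang a1 c1) < tan (ang a2 c2) :=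
    tan_lt' (ang_nonneg (by linarith) _) e2 ((ang_le (by linarith) _).trans (by linarith))
  have h7 : 0 < tan (ang a1 c1) :=
    tan_pos' (ang_pos (by linarith) _) ((ang_le (by linarith) _).trans (by linarith))
  have h8 : c1 * tan (ang a1 c1) < c2 * tan (ang a2 c2) := by
    apply mul_lt_mul hlt h6.le h7 p2.le
  linarith

/-- Uniqueness of the symmetric solution. -/
theorem uniq_real {a1 c1 a2 c2 : ℝ} (h1 : (1 / 4) * a1 ^ 2 = c1 * tan (ang a1 c1))
    (g1 : a1 ^ 2 + c1 ^ 2 + ((1 / 4) * a1 ^ 2) ^ 2 = 1) (p1 : 0 < c1)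
    (h2 : (1 / 4) * a2 ^ 2 = c2 * tan (ang a2 c2))
    (g2 : a2 ^ 2 + c2 ^ 2 + ((1 / 4) * a2 ^ 2) ^ 2 = 1) (p2 : 0 < c2) :
    c1 = c2 ∧ (a1 = a2 ∨ a1 = - a2) := by
  have hc : c1 = c2 := by
    rcases lt_trichotomy c1 c2 with h | h | h
    · exact (uniq_aux h1 g1 p1 h2 g2 p2 h).elim
    · exact h
    · exact (uniq_aux h2 g2 p2 h1 g1 p1 h).elim
  refine ⟨hc, ?_⟩
  rw [hc] at g1
  apply sq_eq_sq_iff_eq_or_eq_neg.mp
  nlinarith [sq_nonneg a1, sq_nonneg a2]

/-- Existence of the symmetric solution. -/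
theorem exists_real : ∃ a c : ℝ, a ≠ 0 ∧ 0 < c ∧ (1 / 4) * a ^ 2 = c * tan (ang a c) ∧
    a ^ 2 + c ^ 2 + ((1 / 4) * a ^ 2) ^ 2 = 1 := by
  let C : ℝ → ℝ := fun a => √(1 - a ^ 2 - ((1 / 4) * a ^ 2) ^ 2)
  let F : ℝ → ℝ := fun a => (1 / 4) * a ^ 2 * cos (ang a (C a)) - C a * sin (ang a (C a))
  have hCc : Continuous C := by fun_prop
  have hang : Continuous (fun a => ang a (C a)) := by
    unfold ang
    apply Continuous.div
    · fun_prop
    · fun_prop
    · intro x; positivity
  have hF : Continuous F := by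
    apply Continuous.sub
    · exact (by fun_prop : Continuous fun a : ℝ => (1 / 4) * a ^ 2).mul (continuous_cos.comp hang)
    · exact hCc.mul (continuous_sin.comp hang)
  have hC0 : C 0 = 1 := by simp [C]
  have hC1 : C 1 = 0 := by
    simp only [C]; apply Real.sqrt_eq_zero_of_nonpos; norm_num
  have hCn : ∀ a, 0 ≤ C a := fun a => Real.sqrt_nonneg _
  have hCle : ∀ a, C a ≤ 1 := by
    intro a; simp only [C]
    rw [Real.sqrt_le_one]
    nlinarith [sq_nonneg a, sq_nonneg ((1 / 4) * a ^ 2)]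
  have hcos : ∀ a, 0 < cos (ang a (C a)) := by
    intro a
    apply Real.cos_pos_of_mem_Ioo
    have h1 := ang_nonneg (x := C a) (by linarith [hCn a]) a
    have h2 := ang_le (x := C a) (by linarith [hCn a]) a
    have h3 := hCle a
    constructor <;> linarith [pi_div_two_gt]
  have h0 : F 0 < 0 := by
    simp only [F, hC0]
    have h : 0 < sin (ang 0 1) := by
      apply Real.sin_pos_of_pos_of_lt_pi (ang_pos (by norm_num) 0)
      have := ang_le (x := 1) (by norm_num) 0
      linarith [Real.pi_gt_three]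
    nlinarith
  have h1 : 0 < F 1 := by
    have := hcos 1
    simp only [F]
    rw [hC1] at this ⊢
    nlinarith
  obtain ⟨a, ha, hFa⟩ : ∃ a ∈ Set.Icc (0 : ℝ) 1, F a = 0 := by
    have := intermediate_value_Icc (zero_le_one' ℝ) hF.continuousOn
    exact this ⟨h0.le, h1.le⟩
  have hane : a ≠ 0 := by
    rintro rfl; exact absurd hFa h0.ne
  have hCpos : 0 < C a := by
    rcases eq_or_lt_of_le (hCn a) with h | h
    · exfalso
      have h2 := hcos a
      simp only [F] at hFa
      rw [← h] at hFa h2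
      have : 0 < (1 / 4) * a ^ 2 * cos (ang a 0) := by positivity
      linarith
    · exact h
  refine ⟨a, C a, hane, hCpos, ?_, ?_⟩
  · rw [tan_eq_sin_div_cos, ← mul_div_assoc, eq_div_iff (hcos a).ne']
    simp only [F] at hFa
    linarith
  · have h3 : 0 < 1 - a ^ 2 - ((1 / 4) * a ^ 2) ^ 2 := by
      simpa [C] using Real.sqrt_pos.mp hCpos
    have : C a ^ 2 = 1 - a ^ 2 - ((1 / 4) * a ^ 2) ^ 2 := Real.sq_sqrt h3.le
    linarith

end Crest.Agent.R205.Arc
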