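import Mathlib
import Crest.Prelude.Def_QuadricHamiltonian
import Crest.Agent.R205.ArcReal

-- ▼ part R205/ArcOps
section

/-! Operators on `ℂ⁵` (left and right quaternion multiplications on the first four coordinates),
their moment functions and the rotations they generate. -/

set_option autoImplicit false

namespace Crest.Agent.R205.Arc

open Crest.GeometryTopology.Quadric Complex

/-- Complex 5-space. -/
abbrev V := Fin 5 → ℂ

/-- Projection on the first four coordinates. -/
noncomputable def P : V →L[ℂ] V := LinearMap.toContinuousLinearMap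
  { toFun := fun z => ![z 0, z 1, z 2, z 3, 0]
    map_add' := by intro x y; ext i; fin_cases i <;> simp
    map_smul' := by intro c x; ext i; fin_cases i <;> simp }

noncomputable def Li : V →L[ℂ] V := LinearMap.toContinuousLinearMap
  { toFun := fun z => ![-z 1, z 0, -z 3, z 2, 0]
    map_add' := by intro x y; ext i; fin_cases i <;> simp <;> ring
    map_smul' := by intro c x; ext i; fin_cases i <;> simp }

noncomputable def Lj : V →L[ℂ] V := LinearMap.toContinuousLinearMap
  { toFun := fun z => ![-z 2, z 3, z 0, -z 1, 0]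
    map_add' := by intro x y; ext i; fin_cases i <;> simp <;> ring
    map_smul' := by intro c x; ext i; fin_cases i <;> simp }

noncomputable def Lk : V →L[ℂ] V := LinearMap.toContinuousLinearMap
  { toFun := fun z => ![-z 3, -z 2, z 1, z 0, 0]
    map_add' := by intro x y; ext i; fin_cases i <;> simp <;> ring
    map_smul' := by intro c x; ext i; fin_cases i <;> simp }

noncomputable def Ri : V →L[ℂ] V := LinearMap.toContinuousLinearMap
  { toFun := fun z => ![-z 1, z 0, z 3, -z 2, 0]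
    map_add' := by intro x y; ext i; fin_cases i <;> simp <;> ring
    map_smul' := by intro c x; ext i; fin_cases i <;> simp }

noncomputable def Rj : V →L[ℂ] V := LinearMap.toContinuousLinearMap
  { toFun := fun z => ![-z 2, -z 3, z 0, z 1, 0]
    map_add' := by intro x y; ext i; fin_cases i <;> simp <;> ring
    map_smul' := by intro c x; ext i; fin_cases i <;> simp }

noncomputable def Rk : V →L[ℂ] V := LinearMap.toContinuousLinearMap
  { toFun := fun z => ![-z 3, z 2, -z 1, z 0, 0]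
    map_add' := by intro x y; ext i; fin_cases i <;> simp <;> ring
    map_smul' := by intro c x; ext i; fin_cases i <;> simp }

theorem P_apply (z : V) : P z = ![z 0, z 1, z 2, z 3, 0] := rfl
theorem Li_apply (z : V) : Li z = ![-z 1, z 0, -z 3, z 2, 0] := rfl
theorem Lj_apply (z : V) : Lj z = ![-z 2, z 3, z 0, -z 1, 0] := rfl
theorem Lk_apply (z : V) : Lk z = ![-z 3, -z 2, z 1, z 0, 0] := rfl
theorem Ri_apply (z : V) : Ri z = ![-z 1, z 0, z 3, -z 2, 0] := rfl
theorem Rj_apply (z : V) : Rj z = ![-z 2, -z 3, z 0, z 1, 0] := rfl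
theorem Rk_apply (z : V) : Rk z = ![-z 3, z 2, -z 1, z 0, 0] := rfl

/-- The bilinear form. -/
def bil (z w : V) : ℂ := ∑ j, z j * w j

theorem herm_add_left (a b w : V) : herm (a + b) w = herm a w + herm b w := by
  simp [herm, Fin.sum_univ_five]; ring
theorem herm_add_right (w a b : V) : herm w (a + b) = herm w a + herm w b := by
  simp [herm, Fin.sum_univ_five]; ring
theorem herm_neg_right (a w : V) : herm w (-a) = - herm w a := by
  simp [herm]
theorem herm_rsmul_left (r : ℝ) (a w : V) : herm (r • a) w = r * herm a w := by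
  simp [herm, Fin.sum_univ_five]; ring
theorem herm_rsmul_right (r : ℝ) (a w : V) : herm w (r • a) = r * herm w a := by
  simp [herm, Fin.sum_univ_five]; ring
theorem herm_smul_smul (c : ℂ) (a w : V) : herm (c • a) (c • w) = (‖c‖ ^ 2 : ℝ) * herm a w := by
  have h : starRingEnd ℂ c * c = ((‖c‖ ^ 2 : ℝ) : ℂ) := by
    rw [← Complex.normSq_eq_norm_sq, mul_comm, Complex.mul_conj]
  simp only [herm, Fin.sum_univ_five, Pi.smul_apply, smul_eq_mul, map_mul]
  rw [← h]; ring

theorem bil_add_left (a b w : V) : bil (a + b) w = bil a w + bil b w := by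
  simp [bil, Fin.sum_univ_five]; ring
theorem bil_add_right (w a b : V) : bil w (a + b) = bil w a + bil w b := by
  simp [bil, Fin.sum_univ_five]; ring
theorem bil_neg_right (a w : V) : bil w (-a) = - bil w a := by
  simp [bil]
theorem bil_rsmul_left (r : ℝ) (a w : V) : bil (r • a) w = r * bil a w := by
  simp [bil, Fin.sum_univ_five]; ring
theorem bil_rsmul_right (r : ℝ) (a w : V) : bil w (r • a) = r * bil w a := by
  simp [bil, Fin.sum_univ_five]; ring

/-- Real antisymmetric operators squaring to `-P`. -/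
structure Gen (E : V →L[ℂ] V) : Prop where
  EE : ∀ z, E (E z) = - P z
  PE : ∀ z, P (E z) = E z
  EP : ∀ z, E (P z) = E z
  h : ∀ z w, herm (E z) w = - herm z (E w)
  b : ∀ z w, bil (E z) w = - bil z (E w)
  four : ∀ z, E z 4 = 0

theorem genLi : Gen Li := by
  refine ⟨?_, ?_, ?_, ?_, ?_, ?_⟩ <;> intro z
  · ext i; fin_cases i <;> simp [Li_apply, P_apply]
  · ext i; fin_cases i <;> simp [Li_apply, P_apply]
  · ext i; fin_cases i <;> simp [Li_apply, P_apply]
  · intro w; simp [herm, Fin.sum_univ_five, Li_apply]; ring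
  · intro w; simp [bil, Fin.sum_univ_five, Li_apply]; ring
  · simp [Li_apply]

theorem genLj : Gen Lj := by
  refine ⟨?_, ?_, ?_, ?_, ?_, ?_⟩ <;> intro z
  · ext i; fin_cases i <;> simp [Lj_apply, P_apply]
  · ext i; fin_cases i <;> simp [Lj_apply, P_apply]
  · ext i; fin_cases i <;> simp [Lj_apply, P_apply]
  · intro w; simp [herm, Fin.sum_univ_five, Lj_apply]; ring
  · intro w; simp [bil, Fin.sum_univ_five, Lj_apply]; ring
  · simp [Lj_apply]

theorem genLk : Gen Lk := by
  refine ⟨?_, ?_, ?_, ?_, ?_, ?_⟩ <;> intro z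
  · ext i; fin_cases i <;> simp [Lk_apply, P_apply]
  · ext i; fin_cases i <;> simp [Lk_apply, P_apply]
  · ext i; fin_cases i <;> simp [Lk_apply, P_apply]
  · intro w; simp [herm, Fin.sum_univ_five, Lk_apply]; ring
  · intro w; simp [bil, Fin.sum_univ_five, Lk_apply]; ring
  · simp [Lk_apply]

theorem genRi : Gen Ri := by
  refine ⟨?_, ?_, ?_, ?_, ?_, ?_⟩ <;> intro z
  · ext i; fin_cases i <;> simp [Ri_apply, P_apply]
  · ext i; fin_cases i <;> simp [Ri_apply, P_apply]
  · ext i; fin_cases i <;> simp [Ri_apply, P_apply]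
  · intro w; simp [herm, Fin.sum_univ_five, Ri_apply]; ring
  · intro w; simp [bil, Fin.sum_univ_five, Ri_apply]; ring
  · simp [Ri_apply]

theorem genRj : Gen Rj := by
  refine ⟨?_, ?_, ?_, ?_, ?_, ?_⟩ <;> intro z
  · ext i; fin_cases i <;> simp [Rj_apply, P_apply]
  · ext i; fin_cases i <;> simp [Rj_apply, P_apply]
  · ext i; fin_cases i <;> simp [Rj_apply, P_apply]
  · intro w; simp [herm, Fin.sum_univ_five, Rj_apply]; ring
  · intro w; simp [bil, Fin.sum_univ_five, Rj_apply]; ring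
  · simp [Rj_apply]

theorem genRk : Gen Rk := by
  refine ⟨?_, ?_, ?_, ?_, ?_, ?_⟩ <;> intro z
  · ext i; fin_cases i <;> simp [Rk_apply, P_apply]
  · ext i; fin_cases i <;> simp [Rk_apply, P_apply]
  · ext i; fin_cases i <;> simp [Rk_apply, P_apply]
  · intro w; simp [herm, Fin.sum_univ_five, Rk_apply]; ring
  · intro w; simp [bil, Fin.sum_univ_five, Rk_apply]; ring
  · simp [Rk_apply]

theorem PP (z : V) : P (P z) = P z := by
  ext i; fin_cases i <;> simp [P_apply]

theorem hP (z w : V) : herm (P z) w = herm z (P w) := by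
  simp [herm, Fin.sum_univ_five, P_apply]

theorem bP (z w : V) : bil (P z) w = bil z (P w) := by
  simp [bil, Fin.sum_univ_five, P_apply]

/-- The rotation by the angle `θ` generated by `E`. -/
noncomputable def rot (E : V →L[ℂ] V) (θ : ℝ) (z : V) : V :=
  z + (Real.cos θ - 1) • P z + Real.sin θ • E z

theorem E_rsmul (E : V →L[ℂ] V) (r : ℝ) (z : V) : E (r • z) = r • E z := by
  rw [← Complex.coe_smul, map_smul, Complex.coe_smul]

theorem rot_zero (E : V →L[ℂ] V) (z : V) : rot E 0 z = z := by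
  simp [rot]

theorem rot_smul (E : V →L[ℂ] V) (θ : ℝ) (c : ℂ) (z : V) : rot E θ (c • z) = c • rot E θ z := by
  simp only [rot, map_smul, smul_add]
  rw [smul_comm c (Real.cos θ - 1) (P z), smul_comm c (Real.sin θ) (E z)]

theorem P_four (z : V) : P z 4 = 0 := rfl

theorem rot_four {E : V →L[ℂ] V} (hE : Gen E) (θ : ℝ) (z : V) : rot E θ z 4 = z 4 := by
  simp only [rot, Pi.add_apply, Pi.smul_apply, hE.four, P_four, smul_zero, add_zero]

theorem herm_rot {E : V →L[ℂ] V} (hE : Gen E) (θ : ℝ) (z w : V) :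
    herm (rot E θ z) (rot E θ w) = herm z w := by
  have h1 : (Real.cos θ : ℂ) ^ 2 + (Real.sin θ : ℂ) ^ 2 = 1 := by
    norm_cast; exact Real.cos_sq_add_sin_sq θ
  simp only [rot, herm_add_left, herm_add_right, herm_rsmul_left, herm_rsmul_right, hP, PP,
    hE.PE, hE.EP, hE.h, hE.EE, herm_neg_right]
  push_cast at *
  linear_combination (herm z (P w)) * h1

theorem bil_rot {E : V →L[ℂ] V} (hE : Gen E) (θ : ℝ) (z w : V) :
    bil (rot E θ z) (rot E θ w) = bil z w := by
  have h1 : (Real.cos θ : ℂ) ^ 2 + (Real.sin θ : ℂ) ^ 2 = 1 := by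
    norm_cast; exact Real.cos_sq_add_sin_sq θ
  simp only [rot, bil_add_left, bil_add_right, bil_rsmul_left, bil_rsmul_right, bP, PP,
    hE.PE, hE.EP, hE.b, hE.EE, bil_neg_right]
  push_cast at *
  linear_combination (bil z (P w)) * h1

theorem rot_mem {E : V →L[ℂ] V} (hE : Gen E) (θ : ℝ) {z : V} (hz : z ∈ unitCone) :
    rot E θ z ∈ unitCone := by
  obtain ⟨h1, h2⟩ := hz
  refine ⟨by rw [herm_rot hE, h1], ?_⟩
  have h3 : ∀ x : V, ∑ j, x j ^ 2 = bil x x := by
    intro x; simp [bil, pow_two]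
  rw [h3] at h2 ⊢
  rw [bil_rot hE, h2]

theorem rot_neg_rot {E : V →L[ℂ] V} (hE : Gen E) (θ : ℝ) (z : V) :
    rot E (-θ) (rot E θ z) = z := by
  have h1 := Real.cos_sq_add_sin_sq θ
  simp only [rot, map_add, E_rsmul, PP, hE.PE, hE.EP, hE.EE, Real.cos_neg, Real.sin_neg,
    smul_add, smul_smul, smul_neg]
  ext j
  simp only [Pi.add_apply, Pi.smul_apply, Complex.real_smul, Pi.neg_apply]
  have h2 : (Real.cos θ : ℂ) ^ 2 + (Real.sin θ : ℂ) ^ 2 = 1 := by exact_mod_cast h1
  push_cast at *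
  linear_combination (P z j) * h2


/-- The moment function of `G`. -/
noncomputable def mom (G : V →L[ℂ] V) (z : V) : ℝ := - (herm z (G z)).im

theorem mom_smul (G : V →L[ℂ] V) {c : ℂ} (hc : ‖c‖ = 1) (z : V) : mom G (c • z) = mom G z := by
  simp only [mom, map_smul, herm_smul_smul, hc]; simp

theorem mom_neg_op (G : V →L[ℂ] V) (z : V) : mom (-G) z = - mom G z := by
  simp [mom, herm_neg_right]

/-- moment functions of operators commuting with the generator are conserved -/
theorem mom_rot_comm {E G : V →L[ℂ] V} (hE : Gen E) (hG : Gen G)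
    (hEG : ∀ z, E (G z) = G (E z)) (θ : ℝ) (z : V) : mom G (rot E θ z) = mom G z := by
  have key : herm (rot E θ z) (G (rot E θ z)) = herm z (G z) := by
    have h1 : G (rot E θ z) = rot E θ (G z) := by
      simp only [rot, map_add, E_rsmul, hG.EP, hG.PE, hEG]
    rw [h1, herm_rot hE]
  simp [mom, key]

/-- moment functions of operators anticommuting with the generator rotate by the double angle -/
theorem mom_rot_anti {E G K : V →L[ℂ] V} (hE : Gen E) (hG : Gen G)
    (hGE : ∀ z, G (E z) = K z) (hEG : ∀ z, E (G z) = - K z) (θ : ℝ) (z : V) :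
    mom G (rot E θ z) = Real.cos (2 * θ) * mom G z + Real.sin (2 * θ) * mom K z := by
  have hPK : ∀ z, P (K z) = K z := by
    intro z; rw [← hGE, hG.PE]
  have hEK : ∀ z, E (K z) = G z := by
    intro z
    rw [← hGE, hEG, ← hGE, hE.EE, map_neg, hG.EP, neg_neg]
  have key : herm (rot E θ z) (G (rot E θ z)) =
      (Real.cos (2 * θ) : ℂ) * herm z (G z) + (Real.sin (2 * θ) : ℂ) * herm z (K z) := by
    rw [Real.cos_two_mul, Real.sin_two_mul]
    have h2 : (Real.sin θ : ℂ) ^ 2 = 1 - (Real.cos θ : ℂ) ^ 2 := by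
      rw [eq_sub_iff_add_eq]; exact_mod_cast Real.sin_sq_add_cos_sq θ
    simp only [rot, map_add, E_rsmul, herm_add_left, herm_add_right, herm_rsmul_left,
      herm_rsmul_right, hP, hE.h, herm_neg_right, hG.EP, hG.PE, hGE, hEG, hPK, hEK]
    push_cast at *
    linear_combination (-(herm z (G z))) * h2
  simp only [mom, key]
  simp only [Complex.add_im, Complex.im_ofReal_mul]
  ring

/-! relations -/

theorem LjRi (z : V) : Lj (Ri z) = Ri (Lj z) := by
  ext i; fin_cases i <;> simp [Lj_apply, Ri_apply]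
theorem LiRj (z : V) : Li (Rj z) = Rj (Li z) := by
  ext i; fin_cases i <;> simp [Li_apply, Rj_apply]
theorem LiRi (z : V) : Li (Ri z) = Ri (Li z) := by
  ext i; fin_cases i <;> simp [Li_apply, Ri_apply]
theorem LjRj (z : V) : Lj (Rj z) = Rj (Lj z) := by
  ext i; fin_cases i <;> simp [Lj_apply, Rj_apply]
theorem LkRi (z : V) : Lk (Ri z) = Ri (Lk z) := by
  ext i; fin_cases i <;> simp [Lk_apply, Ri_apply]
theorem LkRj (z : V) : Lk (Rj z) = Rj (Lk z) := by
  ext i; fin_cases i <;> simp [Lk_apply, Rj_apply]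
theorem LiRk (z : V) : Li (Rk z) = Rk (Li z) := by
  ext i; fin_cases i <;> simp [Li_apply, Rk_apply]
theorem LjRk (z : V) : Lj (Rk z) = Rk (Lj z) := by
  ext i; fin_cases i <;> simp [Lj_apply, Rk_apply]
theorem LiLj (z : V) : Li (Lj z) = Lk z := by
  ext i; fin_cases i <;> simp [Li_apply, Lj_apply, Lk_apply]
theorem LjLi (z : V) : Lj (Li z) = - Lk z := by
  ext i; fin_cases i <;> simp [Li_apply, Lj_apply, Lk_apply]
theorem LjLk (z : V) : Lj (Lk z) = Li z := by
  ext i; fin_cases i <;> simp [Li_apply, Lj_apply, Lk_apply]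
theorem LkLj (z : V) : Lk (Lj z) = - Li z := by
  ext i; fin_cases i <;> simp [Li_apply, Lj_apply, Lk_apply]
theorem LkLi (z : V) : Lk (Li z) = Lj z := by
  ext i; fin_cases i <;> simp [Li_apply, Lj_apply, Lk_apply]
theorem LiLk (z : V) : Li (Lk z) = - Lj z := by
  ext i; fin_cases i <;> simp [Li_apply, Lj_apply, Lk_apply]
theorem RjRi (z : V) : Rj (Ri z) = Rk z := by
  ext i; fin_cases i <;> simp [Ri_apply, Rj_apply, Rk_apply]
theorem RiRj (z : V) : Ri (Rj z) = - Rk z := by
  ext i; fin_cases i <;> simp [Ri_apply, Rj_apply, Rk_apply]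
theorem RkRj (z : V) : Rk (Rj z) = Ri z := by
  ext i; fin_cases i <;> simp [Ri_apply, Rj_apply, Rk_apply]
theorem RjRk (z : V) : Rj (Rk z) = - Ri z := by
  ext i; fin_cases i <;> simp [Ri_apply, Rj_apply, Rk_apply]
theorem RiRk (z : V) : Ri (Rk z) = Rj z := by
  ext i; fin_cases i <;> simp [Ri_apply, Rj_apply, Rk_apply]
theorem RkRi (z : V) : Rk (Ri z) = - Rj z := by
  ext i; fin_cases i <;> simp [Ri_apply, Rj_apply, Rk_apply]

end Crest.Agent.R205.Arc
end

-- ▼ part R205/ArcLift
section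

/-! The two explicit collective flows and the Hamiltonian lift built from them. -/

set_option autoImplicit false

namespace Crest.Agent.R205.Arc

open Crest.GeometryTopology.Quadric Complex

/-! ### smoothness of the ingredients -/

theorem contDiff_op (E : V →L[ℂ] V) : ContDiff ℝ (⊤ : ℕ∞) (fun z : V => E z) :=
  (E.restrictScalars ℝ).contDiff

theorem herm_im (z w : V) : (herm z w).im = ∑ j, ((z j).re * (w j).im - (z j).im * (w j).re) := by
  simp only [herm, Complex.im_sum]
  refine Finset.sum_congr rfl fun j _ => ?_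
  simp; ring

theorem contDiff_mom (G : V →L[ℂ] V) : ContDiff ℝ (⊤ : ℕ∞) (mom G) := by
  have h : mom G = fun z => -(∑ j, ((z j).re * (G z j).im - (z j).im * (G z j).re)) := by
    funext z; rw [mom, herm_im]
  rw [h]
  have h1 : ∀ j, ContDiff ℝ (⊤ : ℕ∞) (fun z : V => z j) := fun j => contDiff_apply ℝ ℂ j
  have h2 : ∀ j, ContDiff ℝ (⊤ : ℕ∞) (fun z : V => G z j) := fun j =>
    (h1 j).comp (contDiff_op G)
  have hre : ∀ {f : V → ℂ}, ContDiff ℝ (⊤ : ℕ∞) f → ContDiff ℝ (⊤ : ℕ∞) (fun z => (f z).re) :=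
    fun hf => Complex.reCLM.contDiff.comp hf
  have him : ∀ {f : V → ℂ}, ContDiff ℝ (⊤ : ℕ∞) f → ContDiff ℝ (⊤ : ℕ∞) (fun z => (f z).im) :=
    fun hf => Complex.imCLM.contDiff.comp hf
  apply ContDiff.neg
  apply ContDiff.sum
  intro j _
  exact ((hre (h1 j)).mul (him (h2 j))).sub ((him (h1 j)).mul (hre (h2 j)))

theorem mom_line {G : V →L[ℂ] V} (hG : Gen G) (x w : V) (s : ℝ) :
    mom G (x + s • w) = mom G x + s * (2 * (herm (G x) w).im) + s ^ 2 * mom G w := by
  have h1 : (herm x (G w)).im = - (herm (G x) w).im := by rw [hG.h]; simp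
  have h2 : (herm w (G x)).im = - (herm (G x) w).im := by
    rw [herm_im, herm_im, ← Finset.sum_neg_distrib]
    refine Finset.sum_congr rfl fun j _ => ?_
    ring
  simp only [mom, map_add, E_rsmul, herm_add_left, herm_add_right, herm_rsmul_left,
    herm_rsmul_right, Complex.add_im, Complex.im_ofReal_mul, h1, h2]
  ring

theorem hasDerivAt_mom_line {G : V →L[ℂ] V} (hG : Gen G) (x w : V) :
    HasDerivAt (fun s : ℝ => mom G (x + s • w)) (2 * (herm (G x) w).im) 0 := by
  have h : (fun s : ℝ => mom G (x + s • w)) =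
      fun s : ℝ => mom G x + s * (2 * (herm (G x) w).im) + s ^ 2 * mom G w := by
    funext s; exact mom_line hG x w s
  rw [h]
  have h1 : HasDerivAt (fun s : ℝ => mom G x + s * (2 * (herm (G x) w).im) + s ^ 2 * mom G w)
      (1 * (2 * (herm (G x) w).im) + ((2 : ℕ) * (0 : ℝ) ^ (2 - 1)) * mom G w) 0 := by
    exact (((hasDerivAt_id (0 : ℝ)).mul_const _).const_add _).add
      ((hasDerivAt_pow 2 (0 : ℝ)).mul_const _)
  simpa using h1

/-! ### the elementary flows -/

/-- first angle -/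
noncomputable def th (E F : V →L[ℂ] V) (z : V) : ℝ := ang (mom E z) (mom F z)

/-- second angle -/
noncomputable def et (E : V →L[ℂ] V) (κ : ℝ) (z : V) : ℝ := κ + Real.arctan ((1 / 4) * mom E z)

/-- the flow of `ham E F κ` -/
noncomputable def flow (E F : V →L[ℂ] V) (κ : ℝ) (τ : ℝ) (z : V) : V :=
  rot E (τ * th E F z) (rot F (τ * et E κ z) z)

/-- the Hamiltonian `κ q + arctan (p / 4) (1 + q)`, where `p`, `q` are the moments of `E`, `F` -/
noncomputable def ham (E F : V →L[ℂ] V) (κ : ℝ) (z : V) : ℝ :=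
  κ * mom F z + Real.arctan ((1 / 4) * mom E z) * (1 + mom F z)

theorem contDiff_th (E F : V →L[ℂ] V) : ContDiff ℝ (⊤ : ℕ∞) (th E F) := by
  unfold th ang
  apply ContDiff.div
  · exact contDiff_const.mul (contDiff_const.add (contDiff_mom F))
  · exact contDiff_const.add (contDiff_const.mul ((contDiff_mom E).pow 2))
  · intro z; positivity

theorem contDiff_arctan_mom (E : V →L[ℂ] V) :
    ContDiff ℝ (⊤ : ℕ∞) (fun z => Real.arctan ((1 / 4) * mom E z)) :=
  Real.contDiff_arctan.comp (contDiff_const.mul (contDiff_mom E))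

theorem contDiff_et (E : V →L[ℂ] V) (κ : ℝ) : ContDiff ℝ (⊤ : ℕ∞) (et E κ) := by
  unfold et
  exact contDiff_const.add (contDiff_arctan_mom E)

theorem contDiff_ham (E F : V →L[ℂ] V) (κ : ℝ) : ContDiff ℝ (⊤ : ℕ∞) (ham E F κ) := by
  unfold ham
  exact (contDiff_const.mul (contDiff_mom F)).add
    ((contDiff_arctan_mom E).mul (contDiff_const.add (contDiff_mom F)))

theorem contDiff_rot {X : Type*} [NormedAddCommGroup X] [NormedSpace ℝ X] (E : V →L[ℂ] V)
    {f : X → ℝ} {g : X → V} (hf : ContDiff ℝ (⊤ : ℕ∞) f) (hg : ContDiff ℝ (⊤ : ℕ∞) g) :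
    ContDiff ℝ (⊤ : ℕ∞) (fun x => rot E (f x) (g x)) := by
  unfold rot
  exact (hg.add (((Real.contDiff_cos.comp hf).sub contDiff_const).smul
    ((contDiff_op P).comp hg))).add ((Real.contDiff_sin.comp hf).smul ((contDiff_op E).comp hg))

theorem contDiff_flow {X : Type*} [NormedAddCommGroup X] [NormedSpace ℝ X]
    (E F : V →L[ℂ] V) (κ : ℝ) {f : X → ℝ} {g : X → V}
    (hf : ContDiff ℝ (⊤ : ℕ∞) f) (hg : ContDiff ℝ (⊤ : ℕ∞) g) :
    ContDiff ℝ (⊤ : ℕ∞) (fun x => flow E F κ (f x) (g x)) := by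
  unfold flow
  exact contDiff_rot E (hf.mul ((contDiff_th E F).comp hg))
    (contDiff_rot F (hf.mul ((contDiff_et E κ).comp hg)) hg)

theorem flow_zero (E F : V →L[ℂ] V) (κ : ℝ) (z : V) : flow E F κ 0 z = z := by
  simp [flow, rot_zero]

/-- Commuting pairs of generators. -/
structure Pair (E F : V →L[ℂ] V) : Prop where
  gE : Gen E
  gF : Gen F
  comm : ∀ z, E (F z) = F (E z)

theorem pairLjRi : Pair Lj Ri := ⟨genLj, genRi, LjRi⟩
theorem pairRjLi : Pair Rj Li := ⟨genRj, genLi, fun z => (LiRj z).symm⟩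

theorem flow_mem {E F : V →L[ℂ] V} (h : Pair E F) (κ τ : ℝ) {z : V} (hz : z ∈ unitCone) :
    flow E F κ τ z ∈ unitCone :=
  rot_mem h.gE _ (rot_mem h.gF _ hz)

theorem flow_four {E F : V →L[ℂ] V} (h : Pair E F) (κ τ : ℝ) (z : V) :
    flow E F κ τ z 4 = z 4 := by
  rw [flow, rot_four h.gE, rot_four h.gF]

theorem mom_flow_E {E F : V →L[ℂ] V} (h : Pair E F) (κ τ : ℝ) (z : V) :
    mom E (flow E F κ τ z) = mom E z := by
  rw [flow, mom_rot_comm h.gE h.gE (fun _ => rfl), mom_rot_comm h.gF h.gE (fun z => (h.comm z).symm)]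

theorem mom_flow_F {E F : V →L[ℂ] V} (h : Pair E F) (κ τ : ℝ) (z : V) :
    mom F (flow E F κ τ z) = mom F z := by
  rw [flow, mom_rot_comm h.gE h.gF h.comm, mom_rot_comm h.gF h.gF (fun _ => rfl)]

theorem th_flow {E F : V →L[ℂ] V} (h : Pair E F) (κ τ : ℝ) (z : V) :
    th E F (flow E F κ τ z) = th E F z := by
  rw [th, mom_flow_E h, mom_flow_F h, th]

theorem et_flow {E F : V →L[ℂ] V} (h : Pair E F) (κ τ : ℝ) (z : V) :
    et E κ (flow E F κ τ z) = et E κ z := by
  rw [et, mom_flow_E h, et]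

theorem flow_smul (E F : V →L[ℂ] V) (κ τ : ℝ) {c : ℂ} (hc : ‖c‖ = 1) (z : V) :
    flow E F κ τ (c • z) = c • flow E F κ τ z := by
  simp only [flow, th, et, mom_smul _ hc, rot_smul]

theorem ham_smul (E F : V →L[ℂ] V) (κ : ℝ) {c : ℂ} (hc : ‖c‖ = 1) (z : V) :
    ham E F κ (c • z) = ham E F κ z := by
  simp only [ham, mom_smul _ hc]

/-! ### the derivative of the flow -/

theorem op_rot {E F : V →L[ℂ] V} (hF : Gen F) (hEF : ∀ z, E (F z) = F (E z)) (θ : ℝ) (z : V) :
    F (rot E θ z) = rot E θ (F z) := by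
  simp only [rot, map_add, E_rsmul, hF.EP, hF.PE, hEF]


theorem rot_rsmul (E : V →L[ℂ] V) (θ r : ℝ) (z : V) : rot E θ (r • z) = r • rot E θ z := by
  rw [← Complex.coe_smul, rot_smul, Complex.coe_smul]

theorem hasDerivAt_op (E : V →L[ℂ] V) {y : ℝ → V} {D : V} {t : ℝ} (hy : HasDerivAt y D t) :
    HasDerivAt (fun s => E (y s)) (E D) t :=
  (E.restrictScalars ℝ).hasFDerivAt.comp_hasDerivAt t hy

theorem hasDerivAt_rot {E : V →L[ℂ] V} (hE : Gen E) {f : ℝ → ℝ} {f' : ℝ} {y : ℝ → V} {D : V}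
    {t : ℝ} (hf : HasDerivAt f f' t) (hy : HasDerivAt y D t) :
    HasDerivAt (fun s => rot E (f s) (y s)) (rot E (f t) D + f' • E (rot E (f t) (y t))) t := by
  have h1 : HasDerivAt (fun s => (Real.cos (f s) - 1) • P (y s))
      ((Real.cos (f t) - 1) • P D + (-Real.sin (f t) * f') • P (y t)) t :=
    (hf.cos.sub_const 1).smul (hasDerivAt_op P hy)
  have h2 : HasDerivAt (fun s => Real.sin (f s) • E (y s))
      (Real.sin (f t) • E D + (Real.cos (f t) * f') • E (y t)) t :=
    hf.sin.smul (hasDerivAt_op E hy)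
  have h3 : HasDerivAt (fun s => rot E (f s) (y s)) _ t := (hy.add h1).add h2
  convert h3 using 1
  simp only [rot, map_add, E_rsmul, hE.EP, hE.EE, smul_add, smul_smul, smul_neg]
  ext j
  simp only [Pi.add_apply, Pi.smul_apply, Pi.neg_apply, Complex.real_smul]
  push_cast
  ring

theorem hasDerivAt_flow {E F : V →L[ℂ] V} (h : Pair E F) (κ : ℝ) (z : V) {f : ℝ → ℝ} {f' t : ℝ}
    (hf : HasDerivAt f f' t) :
    HasDerivAt (fun s => flow E F κ (f s) z)
      (f' • (th E F (flow E F κ (f t) z) • E (flow E F κ (f t) z)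
        + et E κ (flow E F κ (f t) z) • F (flow E F κ (f t) z))) t := by
  rw [th_flow h, et_flow h]
  have h1 : HasDerivAt (fun s => rot F (f s * et E κ z) z)
      (rot F (f t * et E κ z) 0 + (f' * et E κ z) • F (rot F (f t * et E κ z) z)) t :=
    hasDerivAt_rot h.gF (hf.mul_const _) (hasDerivAt_const t z)
  have h2 : HasDerivAt (fun s => flow E F κ (f s) z) _ t :=
    hasDerivAt_rot h.gE (hf.mul_const (th E F z)) h1
  convert h2 using 1
  have h0 : rot F (f t * et E κ z) 0 = 0 := by simp [rot]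
  rw [h0, zero_add, rot_rsmul, ← op_rot h.gF h.comm]
  simp only [flow, smul_add, smul_smul]
  rw [add_comm]

/-! ### the derivative of the Hamiltonian -/

theorem fderiv_of_line {f : V → ℝ} {x w : V} {d : ℝ} (hf : DifferentiableAt ℝ f x)
    (h : HasDerivAt (fun s : ℝ => f (x + s • w)) d 0) : fderiv ℝ f x w = d := by
  have h1 : HasDerivAt (fun s : ℝ => x + s • w) w 0 := by
    simpa using ((hasDerivAt_id (0 : ℝ)).smul_const w).const_add x
  have h2 : HasFDerivAt f (fderiv ℝ f x) (x + (0 : ℝ) • w) := by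
    simpa using hf.hasFDerivAt
  exact (h2.comp_hasDerivAt (0 : ℝ) h1).unique h

theorem fderiv_ham {E F : V →L[ℂ] V} (h : Pair E F) (κ : ℝ) (x w : V) :
    fderiv ℝ (ham E F κ) x w = 2 * (herm (th E F x • E x + et E κ x • F x) w).im := by
  apply fderiv_of_line ((contDiff_ham E F κ).differentiable (by simp) x)
  have hE := hasDerivAt_mom_line h.gE x w
  have hF := hasDerivAt_mom_line h.gF x w
  have e0 : x + (0 : ℝ) • w = x := by simp
  have h1 : HasDerivAt (fun s : ℝ => ham E F κ (x + s • w)) _ 0 :=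
    (hF.const_mul κ).add (((hE.const_mul (1 / 4 : ℝ)).arctan).mul (hF.const_add 1))
  convert h1 using 1
  simp only [e0, herm_add_left, herm_rsmul_left, Complex.add_im, Complex.im_ofReal_mul, th, et, ang]
  have : (1 + (1 / 4 : ℝ) ^ 2 * mom E x ^ 2) ≠ 0 := by positivity
  have : (1 + (1 / 4 * mom E x : ℝ) ^ 2) ≠ 0 := by positivity
  field_simp
  ring

/-! ### the lift -/

/-- time profile of the first flow -/
noncomputable def pa (t : ℝ) : ℝ := Real.smoothTransition (3 * t)
/-- time profile of the second flow -/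
noncomputable def pb (t : ℝ) : ℝ := Real.smoothTransition (3 * t - 2)

theorem contDiff_pa : ContDiff ℝ (⊤ : ℕ∞) pa :=
  Real.smoothTransition.contDiff.comp (contDiff_const.mul contDiff_id)

theorem contDiff_pb : ContDiff ℝ (⊤ : ℕ∞) pb :=
  Real.smoothTransition.contDiff.comp ((contDiff_const.mul contDiff_id).sub contDiff_const)

theorem pa_zero : pa 0 = 0 := by
  simp [pa]
theorem pb_zero : pb 0 = 0 := by
  unfold pb; apply Real.smoothTransition.zero_of_nonpos; norm_num
theorem pa_one : pa 1 = 1 := by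
  unfold pa; apply Real.smoothTransition.one_of_one_le; norm_num
theorem pb_one : pb 1 = 1 := by
  unfold pb; apply Real.smoothTransition.one_of_one_le; norm_num
theorem pb_eventually {t : ℝ} (ht : t < 2 / 3) : ∀ᶠ s in nhds t, pb s = 0 := by
  filter_upwards [Iio_mem_nhds ht] with s hs
  unfold pb; apply Real.smoothTransition.zero_of_nonpos
  have : s < 2 / 3 := hs
  linarith
theorem pa_eventually {t : ℝ} (ht : 1 / 3 < t) : ∀ᶠ s in nhds t, pa s = 1 := by
  filter_upwards [Ioi_mem_nhds ht] with s hs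
  unfold pa; apply Real.smoothTransition.one_of_one_le
  have : 1 / 3 < s := hs
  linarith

/-- the isotopy -/
noncomputable def Psi (p : ℝ × V) : V :=
  flow Rj Li Real.pi (pb p.1) (flow Lj Ri 0 (pa p.1) p.2)

/-- the time dependent Hamiltonian -/
noncomputable def Ham (p : ℝ × V) : ℝ :=
  deriv pa p.1 * ham Lj Ri 0 p.2 + deriv pb p.1 * ham Rj Li Real.pi p.2

theorem contDiff_deriv_of {f : ℝ → ℝ} (hf : ContDiff ℝ (⊤ : ℕ∞) f) :
    ContDiff ℝ (⊤ : ℕ∞) (deriv f) := by
  have h : ContDiff ℝ ((⊤ : ℕ∞) + 1) f := by simpa using hf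
  exact (contDiff_succ_iff_deriv.mp h).2.2

/-- The Hamiltonian isotopy of the quadric threefold. -/
noncomputable def lift : HamiltonianConeLift where
  Ψ := Psi
  H := Ham
  smooth_Ψ := by
    unfold Psi
    exact contDiff_flow _ _ _ (contDiff_pb.comp contDiff_fst)
      (contDiff_flow _ _ _ (contDiff_pa.comp contDiff_fst) contDiff_snd)
  smooth_H := by
    unfold Ham
    exact (((contDiff_deriv_of contDiff_pa).comp contDiff_fst).mul
        ((contDiff_ham _ _ _).comp contDiff_snd)).add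
      (((contDiff_deriv_of contDiff_pb).comp contDiff_fst).mul
        ((contDiff_ham _ _ _).comp contDiff_snd))
  mapsTo_cone := by
    intro t z hz
    exact flow_mem pairRjLi _ _ (flow_mem pairLjRi _ _ hz)
  compatible := by
    intro t z _ c hc
    exact ⟨c, by simp only [Psi, flow_smul _ _ _ _ hc]⟩
  start := by
    intro z _
    exact ⟨1, by simp only [Psi, pa_zero, pb_zero, flow_zero, one_smul]⟩
  invariant := by
    intro t z _ c hc
    simp only [Ham, ham_smul _ _ _ hc]
  hamilton := by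
    intro t _ z _ w _
    have ha : HasDerivAt pa (deriv pa t) t :=
      ((contDiff_pa.differentiable (by simp)) t).hasDerivAt
    have hb : HasDerivAt pb (deriv pb t) t :=
      ((contDiff_pb.differentiable (by simp)) t).hasDerivAt
    have hd2 : ∀ x, DifferentiableAt ℝ (ham Lj Ri 0) x := fun x =>
      (contDiff_ham Lj Ri 0).differentiable (by simp) x
    have hd1 : ∀ x, DifferentiableAt ℝ (ham Rj Li Real.pi) x := fun x =>
      (contDiff_ham Rj Li Real.pi).differentiable (by simp) x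
    have hH : ∀ x, fderiv ℝ (fun x : V => Ham (t, x)) x w =
        deriv pa t * fderiv ℝ (ham Lj Ri 0) x w + deriv pb t * fderiv ℝ (ham Rj Li Real.pi) x w := by
      intro x
      have := ((hd2 x).hasFDerivAt.const_mul (deriv pa t)).add
        ((hd1 x).hasFDerivAt.const_mul (deriv pb t))
      have h2 : HasFDerivAt (fun x : V => Ham (t, x))
        (deriv pa t • fderiv ℝ (ham Lj Ri 0) x + deriv pb t • fderiv ℝ (ham Rj Li Real.pi) x) x := this
      rw [h2.fderiv]
      simp
    rw [hH]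
    rcases lt_or_ge t (2 / 3) with ht | ht
    · have hev := pb_eventually ht
      have hb0 : deriv pb t = 0 := by
        have : pb =ᶠ[nhds t] fun _ => (0 : ℝ) := hev
        rw [this.deriv_eq]; simp
      have hbt : pb t = 0 := hev.self_of_nhds
      have hPsi : (fun s : ℝ => Psi (s, z)) =ᶠ[nhds t] fun s => flow Lj Ri 0 (pa s) z := by
        filter_upwards [hev] with s hs
        simp only [Psi, hs, flow_zero]
      rw [hPsi.deriv_eq, (hasDerivAt_flow pairLjRi 0 z ha).deriv]
      have hx : Psi (t, z) = flow Lj Ri 0 (pa t) z := hPsi.self_of_nhds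
      rw [hx, hb0, fderiv_ham pairLjRi, herm_rsmul_left, Complex.im_ofReal_mul]
      ring
    · have hev := pa_eventually (lt_of_lt_of_le (by norm_num) ht : 1 / 3 < t)
      have ha0 : deriv pa t = 0 := by
        have : pa =ᶠ[nhds t] fun _ => (1 : ℝ) := hev
        rw [this.deriv_eq]; simp
      have hat : pa t = 1 := hev.self_of_nhds
      have hPsi : (fun s : ℝ => Psi (s, z)) =ᶠ[nhds t]
          fun s => flow Rj Li Real.pi (pb s) (flow Lj Ri 0 1 z) := by
        filter_upwards [hev] with s hs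
        simp only [Psi, hs]
      rw [hPsi.deriv_eq, (hasDerivAt_flow pairRjLi Real.pi _ hb).deriv]
      have hx : Psi (t, z) = flow Rj Li Real.pi (pb t) (flow Lj Ri 0 1 z) := hPsi.self_of_nhds
      rw [hx, ha0, fderiv_ham pairRjLi, herm_rsmul_left, Complex.im_ofReal_mul]
      ring

/-- the time-one map -/
theorem lift_one (z : V) : lift.Ψ (1, z) = flow Rj Li Real.pi 1 (flow Lj Ri 0 1 z) := by
  show Psi (1, z) = _
  simp only [Psi, pa_one, pb_one]

end Crest.Agent.R205.Arc
end

-- ▼ part R205/ArcFixed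

/-! The fixed lines of the time-one map. -/

set_option autoImplicit false

namespace Crest.Agent.R205.Arc

open Crest.GeometryTopology.Quadric Complex

/-- squared norm of the first four coordinates -/
noncomputable def nrm (z : V) : ℝ :=
  normSq (z 0) + normSq (z 1) + normSq (z 2) + normSq (z 3)

theorem nrm_nonneg (z : V) : 0 ≤ nrm z := by
  unfold nrm
  have := normSq_nonneg (z 0); have := normSq_nonneg (z 1)
  have := normSq_nonneg (z 2); have := normSq_nonneg (z 3)
  positivity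

theorem nrm_add {z : V} (hz : z ∈ unitCone) : nrm z + normSq (z 4) = 1 := by
  have h := hz.1
  simp only [herm, Fin.sum_univ_five, ← Complex.normSq_eq_conj_mul_self] at h
  unfold nrm
  exact_mod_cast h

theorem sq_four {z : V} (hz : z ∈ unitCone) :
    z 0 ^ 2 + z 1 ^ 2 + z 2 ^ 2 + z 3 ^ 2 = - z 4 ^ 2 := by
  have h := hz.2
  simp only [Fin.sum_univ_five] at h
  linear_combination h

theorem mom_Li (z : V) : mom Li z = 2 * ((z 0).re * (z 1).im - (z 0).im * (z 1).re)
    + 2 * ((z 2).re * (z 3).im - (z 2).im * (z 3).re) := by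
  rw [mom, herm_im]; simp [Fin.sum_univ_five, Li_apply]; ring
theorem mom_Lj (z : V) : mom Lj z = 2 * ((z 0).re * (z 2).im - (z 0).im * (z 2).re)
    - 2 * ((z 1).re * (z 3).im - (z 1).im * (z 3).re) := by
  rw [mom, herm_im]; simp [Fin.sum_univ_five, Lj_apply]; ring
theorem mom_Lk (z : V) : mom Lk z = 2 * ((z 0).re * (z 3).im - (z 0).im * (z 3).re)
    + 2 * ((z 1).re * (z 2).im - (z 1).im * (z 2).re) := by
  rw [mom, herm_im]; simp [Fin.sum_univ_five, Lk_apply]; ring
theorem mom_Ri (z : V) : mom Ri z = 2 * ((z 0).re * (z 1).im - (z 0).im * (z 1).re)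
    - 2 * ((z 2).re * (z 3).im - (z 2).im * (z 3).re) := by
  rw [mom, herm_im]; simp [Fin.sum_univ_five, Ri_apply]; ring
theorem mom_Rj (z : V) : mom Rj z = 2 * ((z 0).re * (z 2).im - (z 0).im * (z 2).re)
    + 2 * ((z 1).re * (z 3).im - (z 1).im * (z 3).re) := by
  rw [mom, herm_im]; simp [Fin.sum_univ_five, Rj_apply]; ring
theorem mom_Rk (z : V) : mom Rk z = 2 * ((z 0).re * (z 3).im - (z 0).im * (z 3).re)
    - 2 * ((z 1).re * (z 2).im - (z 1).im * (z 2).re) := by
  rw [mom, herm_im]; simp [Fin.sum_univ_five, Rk_apply]; ring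

theorem u_sq (z : V) : mom Li z ^ 2 + mom Lj z ^ 2 + mom Lk z ^ 2 =
    nrm z ^ 2 - normSq (z 0 ^ 2 + z 1 ^ 2 + z 2 ^ 2 + z 3 ^ 2) := by
  rw [mom_Li, mom_Lj, mom_Lk, nrm]
  simp only [normSq_apply, pow_two, Complex.add_re, Complex.add_im, Complex.mul_re, Complex.mul_im]
  ring

theorem v_sq (z : V) : mom Ri z ^ 2 + mom Rj z ^ 2 + mom Rk z ^ 2 =
    nrm z ^ 2 - normSq (z 0 ^ 2 + z 1 ^ 2 + z 2 ^ 2 + z 3 ^ 2) := by
  rw [mom_Ri, mom_Rj, mom_Rk, nrm]
  simp only [normSq_apply, pow_two, Complex.add_re, Complex.add_im, Complex.mul_re, Complex.mul_im]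
  ring

theorem u_le {z : V} (hz : z ∈ unitCone) : mom Li z ^ 2 + mom Lj z ^ 2 + mom Lk z ^ 2 ≤ 1 := by
  rw [u_sq]
  have h1 := nrm_add hz
  have h2 := nrm_nonneg z
  have h3 := normSq_nonneg (z 4)
  have h4 := normSq_nonneg (z 0 ^ 2 + z 1 ^ 2 + z 2 ^ 2 + z 3 ^ 2)
  nlinarith

theorem v_le {z : V} (hz : z ∈ unitCone) : mom Ri z ^ 2 + mom Rj z ^ 2 + mom Rk z ^ 2 ≤ 1 := by
  rw [v_sq, ← u_sq]; exact u_le hz

theorem u_eq {z : V} (hz : z ∈ unitCone) (h4 : z 4 = 0) :
    mom Li z ^ 2 + mom Lj z ^ 2 + mom Lk z ^ 2 = 1 := by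
  rw [u_sq, sq_four hz, h4]
  have h1 := nrm_add hz
  rw [h4] at h1
  simp at h1
  rw [h1]; simp

theorem v_eq {z : V} (hz : z ∈ unitCone) (h4 : z 4 = 0) :
    mom Ri z ^ 2 + mom Rj z ^ 2 + mom Rk z ^ 2 = 1 := by
  rw [v_sq, ← u_sq]; exact u_eq hz h4

/-- a unit cone point on the quadric surface is determined by its moments up to a scalar -/
theorem line_of_moments {z : V} (hz : z ∈ unitCone) (h4 : z 4 = 0)
    (h1 : mom Ri z = mom Li z) (h2 : mom Rj z = mom Lj z) (h3 : mom Rk z = mom Lk z) :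
    z = z 0 • ![1, I * (mom Li z : ℂ), I * (mom Lj z : ℂ), I * (mom Lk z : ℂ), 0] := by
  have hu := u_eq hz h4
  have hn := nrm_add hz
  rw [h4] at hn
  simp only [map_zero, add_zero] at hn
  have e1 : 2 * ((z 0).re * (z 1).im - (z 0).im * (z 1).re) = mom Li z := by
    have := mom_Li z; have := mom_Ri z; linarith
  have e2 : 2 * ((z 0).re * (z 2).im - (z 0).im * (z 2).re) = mom Lj z := by
    have := mom_Lj z; have := mom_Rj z; linarith
  have e3 : 2 * ((z 0).re * (z 3).im - (z 0).im * (z 3).re) = mom Lk z := by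
    have := mom_Lk z; have := mom_Rk z; linarith
  set p := mom Li z
  set q := mom Lj z
  set r := mom Lk z
  have key : normSq (z 1 - I * p * z 0) + normSq (z 2 - I * q * z 0)
      + normSq (z 3 - I * r * z 0) = 0 := by
    have : normSq (z 1 - I * p * z 0) + normSq (z 2 - I * q * z 0)
      + normSq (z 3 - I * r * z 0) = nrm z + (p ^ 2 + q ^ 2 + r ^ 2 - 1) * normSq (z 0)
       - p * (2 * ((z 0).re * (z 1).im - (z 0).im * (z 1).re))
       - q * (2 * ((z 0).re * (z 2).im - (z 0).im * (z 2).re))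
       - r * (2 * ((z 0).re * (z 3).im - (z 0).im * (z 3).re)) := by
      simp only [nrm, normSq_apply, Complex.sub_re, Complex.sub_im, Complex.mul_re, Complex.mul_im,
        Complex.I_re, Complex.I_im, Complex.ofReal_re, Complex.ofReal_im]
      ring
    rw [this, e1, e2, e3, hn, hu]
    linear_combination -hu
  have g1 := normSq_nonneg (z 1 - I * p * z 0)
  have g2 := normSq_nonneg (z 2 - I * q * z 0)
  have g3 := normSq_nonneg (z 3 - I * r * z 0)
  have k1 : z 1 - I * p * z 0 = 0 := normSq_eq_zero.mp (by linarith)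
  have k2 : z 2 - I * q * z 0 = 0 := normSq_eq_zero.mp (by linarith)
  have k3 : z 3 - I * r * z 0 = 0 := normSq_eq_zero.mp (by linarith)
  ext j
  fin_cases j
  · simp
  · simp; linear_combination k1
  · simp; linear_combination k2
  · simp; linear_combination k3
  · simp [h4]

/-! ### the two half maps -/

theorem step2 (z : V) : flow Lj Ri 0 1 z =
    rot Lj (ang (mom Lj z) (mom Ri z)) (rot Ri (Real.arctan ((1 / 4) * mom Lj z)) z) := by
  simp [flow, th, et]

theorem step1 (y : V) : flow Rj Li Real.pi 1 y =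
    rot Rj (ang (mom Rj y) (mom Li y)) (rot Li (Real.pi + Real.arctan ((1 / 4) * mom Rj y)) y) := by
  simp [flow, th, et]

/-- the time-one map -/
noncomputable def M (z : V) : V := flow Rj Li Real.pi 1 (flow Lj Ri 0 1 z)

theorem M_mem {z : V} (hz : z ∈ unitCone) : M z ∈ unitCone :=
  flow_mem pairRjLi _ _ (flow_mem pairLjRi _ _ hz)

theorem M_four (z : V) : M z 4 = z 4 := by
  rw [M, flow_four pairRjLi, flow_four pairLjRi]

theorem norm_one_of {z : V} {c : ℂ} (hz : z ∈ unitCone) (hc : c • z ∈ unitCone) : ‖c‖ = 1 := by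
  have h1 := hc.1
  rw [herm_smul_smul, hz.1, mul_one] at h1
  have h2 : ‖c‖ ^ 2 = 1 := by exact_mod_cast h1
  exact (pow_eq_one_iff_of_nonneg (norm_nonneg c) two_ne_zero).mp h2

/-- The fixed line equation. -/
theorem fixed_eq {z : V} (hz : z ∈ unitCone) {c : ℂ} (h : M z = c • z) :
    rot Lj (ang (mom Lj z) (mom Ri z)) (rot Ri (Real.arctan ((1 / 4) * mom Lj z)) z) =
    c • rot Li (-(Real.pi + Real.arctan ((1 / 4) * mom Rj z)))
      (rot Rj (-(ang (mom Rj z) (mom Li z))) z) := by
  have hc : ‖c‖ = 1 := norm_one_of hz (h ▸ M_mem hz)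
  have hj : mom Rj (flow Lj Ri 0 1 z) = mom Rj z := by
    have : mom Rj (M z) = mom Rj (flow Lj Ri 0 1 z) := by rw [M, mom_flow_E pairRjLi]
    rw [← this, h, mom_smul _ hc]
  have hi : mom Li (flow Lj Ri 0 1 z) = mom Li z := by
    have : mom Li (M z) = mom Li (flow Lj Ri 0 1 z) := by rw [M, mom_flow_F pairRjLi]
    rw [← this, h, mom_smul _ hc]
  rw [← step2]
  have h1 : M z = _ := step1 (flow Lj Ri 0 1 z)
  rw [hj, hi, h] at h1
  have h2 := congrArg (fun x => rot Li (-(Real.pi + Real.arctan ((1 / 4) * mom Rj z)))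
      (rot Rj (-(ang (mom Rj z) (mom Li z))) x)) h1
  simp only [rot_neg_rot genRj, rot_neg_rot genLi, rot_smul] at h2
  exact h2.symm

end Crest.Agent.R205.Arc
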