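import Mathlib
import Crest.Prelude.Def_QuadricHamiltonian
import Crest.Agent.R205.ArcFixed
import Crest.Agent.R205.ArcReal
import Crest.Agent.R205.ArcMain

/-! Exactly three fixed lines, one of them degenerate. -/

set_option autoImplicit false

namespace Crest.Agent.R205.Arc

open Crest.GeometryTopology.Quadric Complex

/-- The point of the cone with both moments equal to the unit vector `(p, q, r)`. -/
noncomputable def pt (p q r : ℝ) : V :=
  ((√2)⁻¹ : ℝ) • ![1, I * (p : ℂ), I * (q : ℂ), I * (r : ℂ), 0]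

theorem pt_apply (p q r : ℝ) : pt p q r =
    ![(((√2)⁻¹ : ℝ) : ℂ), (((√2)⁻¹ : ℝ) : ℂ) * (I * (p : ℂ)), (((√2)⁻¹ : ℝ) : ℂ) * (I * (q : ℂ)),
      (((√2)⁻¹ : ℝ) : ℂ) * (I * (r : ℂ)), 0] := by
  ext j; fin_cases j <;> simp [pt]

theorem inv_sqrt_two_sq : ((√2)⁻¹ : ℝ) * ((√2)⁻¹ : ℝ) = 1 / 2 := by
  rw [← mul_inv, Real.mul_self_sqrt (by norm_num)]; norm_num

theorem pt_mem {p q r : ℝ} (h : p ^ 2 + q ^ 2 + r ^ 2 = 1) : pt p q r ∈ unitCone := by
  have h2 := inv_sqrt_two_sq
  have h2' : ((((√2)⁻¹ : ℝ) : ℂ)) * (((√2)⁻¹ : ℝ) : ℂ) = 1 / 2 := by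
    rw [← Complex.ofReal_mul, h2]; norm_num
  have h' : (p : ℂ) ^ 2 + (q : ℂ) ^ 2 + (r : ℂ) ^ 2 = 1 := by exact_mod_cast h
  set s : ℝ := (√2)⁻¹
  constructor
  · rw [pt_apply]
    simp only [herm, Fin.sum_univ_five]
    simp only [Matrix.cons_val_zero, Matrix.cons_val_one, Matrix.cons_val, map_mul,
      Complex.conj_ofReal, Complex.conj_I, map_zero]
    linear_combination (1 + (p : ℂ) ^ 2 + (q : ℂ) ^ 2 + (r : ℂ) ^ 2) * h2' + (1 / 2) * h'
      - (s : ℂ) * s * ((p : ℂ) ^ 2 + (q : ℂ) ^ 2 + (r : ℂ) ^ 2) * Complex.I_sq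
  · rw [pt_apply]
    simp only [Fin.sum_univ_five]
    simp only [Matrix.cons_val_zero, Matrix.cons_val_one, Matrix.cons_val]
    linear_combination ((s : ℂ) * s * ((p : ℂ) ^ 2 + (q : ℂ) ^ 2 + (r : ℂ) ^ 2)) * Complex.I_sq
      - (s : ℂ) * s * h'

theorem pt_four (p q r : ℝ) : pt p q r 4 = 0 := by
  rw [pt_apply]; simp

theorem pt_moments (p q r : ℝ) : mom Li (pt p q r) = p ∧ mom Lj (pt p q r) = q ∧
    mom Lk (pt p q r) = r ∧ mom Ri (pt p q r) = p ∧ mom Rj (pt p q r) = q ∧
    mom Rk (pt p q r) = r := by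
  have h2 := inv_sqrt_two_sq
  set s : ℝ := (√2)⁻¹ with hs
  refine ⟨?_, ?_, ?_, ?_, ?_, ?_⟩
  · rw [mom_Li, pt_apply]; simp [← hs]; linear_combination 2 * p * h2
  · rw [mom_Lj, pt_apply]; simp [← hs]; linear_combination 2 * q * h2
  · rw [mom_Lk, pt_apply]; simp [← hs]; linear_combination 2 * r * h2
  · rw [mom_Ri, pt_apply]; simp [← hs]; linear_combination 2 * p * h2
  · rw [mom_Rj, pt_apply]; simp [← hs]; linear_combination 2 * q * h2
  · rw [mom_Rk, pt_apply]; simp [← hs]; linear_combination 2 * r * h2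

/-- A cone point with equal moments spans the line of the corresponding `pt`. -/
theorem span_eq_of_moments {z : V} (hz : z ∈ unitCone) (h4 : z 4 = 0)
    (h1 : mom Ri z = mom Li z) (h2 : mom Rj z = mom Lj z) (h3 : mom Rk z = mom Lk z) :
    Submodule.span ℂ {z} = Submodule.span ℂ {pt (mom Li z) (mom Lj z) (mom Lk z)} := by
  have h := line_of_moments hz h4 h1 h2 h3
  have h0 : z 0 ≠ 0 := by
    intro h0
    rw [h0, zero_smul] at h
    have := hz.1
    rw [h] at this
    simp [herm] at this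
  have hs : (((√2)⁻¹ : ℝ) : ℂ) ≠ 0 := by
    simp
  have e : z = (z 0 * ((((√2)⁻¹ : ℝ) : ℂ))⁻¹) • pt (mom Li z) (mom Lj z) (mom Lk z) := by
    conv_lhs => rw [h]
    rw [pt, ← Complex.coe_smul, smul_smul, mul_assoc, inv_mul_cancel₀ hs, mul_one]
  have hne : (z 0 * ((((√2)⁻¹ : ℝ) : ℂ))⁻¹) ≠ 0 := mul_ne_zero h0 (inv_ne_zero hs)
  conv_lhs => rw [e]
  exact Submodule.span_singleton_smul_eq (IsUnit.mk0 _ hne) _

/-- Converse: the points with the right moments are fixed. -/
theorem M_fixed {p q r : ℝ} (h : p ^ 2 + q ^ 2 + r ^ 2 = 1) (hr : r = (1 / 4) * q ^ 2)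
    (hα : r * Real.cos (ang q p) = Real.sin (ang q p) * p) :
    M (pt p q r) ∈ Submodule.span ℂ {pt p q r} := by
  obtain ⟨h1, h2, h3, h4, h5, h6⟩ := pt_moments p q r
  have hβ : r * Real.cos (Real.arctan ((1 / 4) * q)) = Real.sin (Real.arctan ((1 / 4) * q)) * q := by
    rw [sin_arctan', hr]; ring
  set α := ang q p
  set β := Real.arctan ((1 / 4) * q) with hβdef
  have hc := Real.sin_sq_add_cos_sq α
  have hd := Real.sin_sq_add_cos_sq β
  set y := flow Lj Ri 0 1 (pt p q r) with hy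
  have ey : y = rot Lj α (rot Ri β (pt p q r)) := by
    rw [hy, step2, h2, h4]
  have yLj : mom Lj y = q := by
    rw [ey, mom_rot_comm genLj genLj (fun _ => rfl), mom_rot_comm genRi genLj (fun z => (LjRi z).symm),
      h2]
  have yLi : mom Li y = p := by
    rw [ey, mom_rot_anti genLj genLi (K := Lk) LiLj LjLi,
      mom_rot_comm genRi genLi (fun z => (LiRi z).symm),
      mom_rot_comm genRi genLk (fun z => (LkRi z).symm), h1, h3, Real.cos_two_mul, Real.sin_two_mul]
    linear_combination 2 * Real.sin α * hα + 2 * p * hc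
  have yLk : mom Lk y = -r := by
    rw [ey, mom_rot_anti genLj genLk (K := -Li) (fun z => by rw [LkLj]; rfl)
      (fun z => by rw [LjLk]; simp), mom_neg_op,
      mom_rot_comm genRi genLk (fun z => (LkRi z).symm),
      mom_rot_comm genRi genLi (fun z => (LiRi z).symm), h1, h3, Real.cos_two_mul, Real.sin_two_mul]
    linear_combination 2 * Real.cos α * hα
  have yRi : mom Ri y = p := by
    rw [ey, mom_rot_comm genLj genRi LjRi, mom_rot_comm genRi genRi (fun _ => rfl), h4]
  have yRj : mom Rj y = q := by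
    rw [ey, mom_rot_comm genLj genRj LjRj, mom_rot_anti genRi genRj (K := Rk) RjRi RiRj, h5, h6,
      Real.cos_two_mul, Real.sin_two_mul]
    linear_combination 2 * Real.sin β * hβ + 2 * q * hd
  have yRk : mom Rk y = -r := by
    rw [ey, mom_rot_comm genLj genRk LjRk, mom_rot_anti genRi genRk (K := -Rj)
      (fun z => by rw [RkRi]; rfl) (fun z => by rw [RiRk]; simp), mom_neg_op, h5, h6,
      Real.cos_two_mul, Real.sin_two_mul]
    linear_combination 2 * Real.cos β * hβ
  set x := M (pt p q r) with hx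
  have ex : x = rot Rj α (rot Li (Real.pi + β) y) := by
    rw [hx, M, ← hy, step1, yRj, yLi]
  have c2 : Real.cos (2 * (Real.pi + β)) = Real.cos (2 * β) := by
    have : 2 * (Real.pi + β) = 2 * β + 2 * Real.pi := by ring
    rw [this, Real.cos_add_two_pi]
  have s2 : Real.sin (2 * (Real.pi + β)) = Real.sin (2 * β) := by
    have : 2 * (Real.pi + β) = 2 * β + 2 * Real.pi := by ring
    rw [this, Real.sin_add_two_pi]
  have xLi : mom Li x = p := by
    rw [ex, mom_rot_comm genRj genLi (fun z => (LiRj z).symm),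
      mom_rot_comm genLi genLi (fun _ => rfl), yLi]
  have xLj : mom Lj x = q := by
    rw [ex, mom_rot_comm genRj genLj (fun z => (LjRj z).symm),
      mom_rot_anti genLi genLj (K := -Lk) (fun z => by rw [LjLi]; rfl)
      (fun z => by rw [LiLj]; simp), mom_neg_op, c2, s2, yLj, yLk,
      Real.cos_two_mul, Real.sin_two_mul]
    linear_combination 2 * Real.sin β * hβ + 2 * q * hd
  have xLk : mom Lk x = r := by
    rw [ex, mom_rot_comm genRj genLk (fun z => (LkRj z).symm),
      mom_rot_anti genLi genLk (K := Lj) LkLi LiLk, c2, s2, yLj, yLk,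
      Real.cos_two_mul, Real.sin_two_mul]
    linear_combination -2 * Real.cos β * hβ
  have xRi : mom Ri x = p := by
    rw [ex, mom_rot_anti genRj genRi (K := -Rk) (fun z => by rw [RiRj]; rfl)
      (fun z => by rw [RjRi]; simp), mom_neg_op, mom_rot_comm genLi genRi LiRi,
      mom_rot_comm genLi genRk LiRk, yRi, yRk, Real.cos_two_mul, Real.sin_two_mul]
    linear_combination 2 * Real.sin α * hα + 2 * p * hc
  have xRj : mom Rj x = q := by
    rw [ex, mom_rot_comm genRj genRj (fun _ => rfl), mom_rot_comm genLi genRj LiRj, yRj]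
  have xRk : mom Rk x = r := by
    rw [ex, mom_rot_anti genRj genRk (K := Ri) RkRj RjRk, mom_rot_comm genLi genRi LiRi,
      mom_rot_comm genLi genRk LiRk, yRi, yRk, Real.cos_two_mul, Real.sin_two_mul]
    linear_combination -2 * Real.cos α * hα
  have hx4 : x 4 = 0 := by rw [hx, M_four, pt_four]
  have hxm : x ∈ unitCone := M_mem (pt_mem h)
  have := span_eq_of_moments hxm hx4 (by rw [xRi, xLi]) (by rw [xRj, xLj]) (by rw [xRk, xLk])
  rw [xLi, xLj, xLk] at this
  rw [← this]
  exact Submodule.mem_span_singleton_self x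

theorem pt_span_ne {p q r p' q' r' : ℝ} (h : p ≠ p' ∨ q ≠ q') :
    Submodule.span ℂ {pt p q r} ≠ Submodule.span ℂ {pt p' q' r'} := by
  intro heq
  have h1 : pt p q r ∈ Submodule.span ℂ {pt p' q' r'} := by
    rw [← heq]; exact Submodule.mem_span_singleton_self _
  obtain ⟨c, hc⟩ := Submodule.mem_span_singleton.mp h1
  have hs : (((√2)⁻¹ : ℝ) : ℂ) ≠ 0 := by simp
  have c0 := congrFun hc 0
  have c1 := congrFun hc 1
  have c2 := congrFun hc 2
  rw [pt_apply, pt_apply] at c0 c1 c2
  simp only [Pi.smul_apply, Matrix.cons_val_zero, Matrix.cons_val_one, Matrix.cons_val,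
    smul_eq_mul] at c0 c1 c2
  have hc1 : c = 1 := by
    have : (c - 1) * (((√2)⁻¹ : ℝ) : ℂ) = 0 := by linear_combination c0
    rcases mul_eq_zero.mp this with h5 | h5
    · exact sub_eq_zero.mp h5
    · exact absurd h5 hs
  rw [hc1, one_mul] at c1 c2
  have d1 : (p' : ℂ) = p := mul_left_cancel₀ Complex.I_ne_zero (mul_left_cancel₀ hs c1)
  have d2 : (q' : ℂ) = q := mul_left_cancel₀ Complex.I_ne_zero (mul_left_cancel₀ hs c2)
  rcases h with h | h
  · exact h (by exact_mod_cast d1.symm)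
  · exact h (by exact_mod_cast d2.symm)

theorem ncard_fixedLines : (fixedLines lift).ncard = 3 := by
  obtain ⟨a, c, ha, hc, h1, h2⟩ := exists_real
  have hang : ∀ x : ℝ, ang (-x) c = ang x c := by
    intro x; unfold ang; rw [neg_sq]
  have hcc : c ≤ 1 := by nlinarith [sq_nonneg a, sq_nonneg ((1 / 4) * a ^ 2)]
  have hcos : 0 < Real.cos (ang a c) := by
    have := cos_ang_pos (y := a) (x := c) (by linarith) hcc
    linarith
  have hα : (1 / 4) * a ^ 2 * Real.cos (ang a c) = Real.sin (ang a c) * c := by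
    rw [h1, Real.tan_eq_sin_div_cos]
    field_simp
  rw [Set.ncard_eq_three]
  refine ⟨Submodule.span ℂ {pt (-1) 0 0}, Submodule.span ℂ {pt c a ((1 / 4) * a ^ 2)},
    Submodule.span ℂ {pt c (-a) ((1 / 4) * a ^ 2)}, ?_, ?_, ?_, ?_⟩
  · exact pt_span_ne (Or.inr (Ne.symm ha))
  · exact pt_span_ne (Or.inr (Ne.symm (neg_ne_zero.mpr ha)))
  · exact pt_span_ne (Or.inr (fun h => ha (by linarith)))
  · ext ℓ
    simp only [fixedLines, Set.mem_ofPred_eq, Set.mem_insert_iff, Set.mem_singleton_iff]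
    constructor
    · rintro ⟨z, hz, rfl, hM⟩
      rw [lift_one] at hM
      obtain ⟨b, hb⟩ := Submodule.mem_span_singleton.mp hM
      obtain ⟨g4, g1, g2, g3, g⟩ := fixed_moments hz (hb.symm : M z = b • z)
      rw [span_eq_of_moments hz g4 g1 g2 g3]
      rcases g with ⟨k1, k2, k3⟩ | ⟨k1, _, k3, k4, k5⟩
      · left; rw [k1, k2, k3]
      · right
        obtain ⟨l1, l2⟩ := uniq_real k4 k5 k1 h1 h2 hc
        rcases l2 with l2 | l2
        · left; rw [k3, l1, l2]
        · right; rw [k3, l1, l2, neg_sq]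
    · rintro (rfl | rfl | rfl)
      · refine ⟨pt (-1) 0 0, pt_mem (by norm_num), rfl, ?_⟩
        rw [lift_one]
        refine M_fixed (by norm_num) (by norm_num) ?_
        have : ang 0 (-1) = 0 := by unfold ang; norm_num
        rw [this]; simp
      · refine ⟨pt c a ((1 / 4) * a ^ 2), pt_mem (by linarith), rfl, ?_⟩
        rw [lift_one]
        exact M_fixed (by linarith) rfl hα
      · refine ⟨pt c (-a) ((1 / 4) * a ^ 2), pt_mem (by rw [neg_sq]; linarith), rfl, ?_⟩
        rw [lift_one]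
        exact M_fixed (by rw [neg_sq]; linarith) (by rw [neg_sq]) (by rw [hang]; exact hα)

/-! ### the degenerate point -/

/-- tangent direction -/
def wdir : V := ![0, 0, 1, 0, 0]

theorem M_on_line (s : ℝ) : M (pt (-1) 0 0 + s • wdir) = -(pt (-1) 0 0 + s • wdir) := by
  have h2 := inv_sqrt_two_sq
  set t : ℝ := (√2)⁻¹ with ht
  have e : pt (-1) 0 0 + s • wdir = ![(t : ℂ), (t : ℂ) * (I * ((-1 : ℝ) : ℂ)), (s : ℂ), 0, 0] := by
    rw [pt_apply, wdir]; ext j; fin_cases j <;> simp [← ht]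
  set x : V := pt (-1) 0 0 + s • wdir with hx
  have hLi : mom Li x = -1 := by
    rw [mom_Li, e]; simp; linear_combination 2 * h2
  have hRi : mom Ri x = -1 := by
    rw [mom_Ri, e]; simp; linear_combination 2 * h2
  have hLj : mom Lj x = 0 := by
    rw [mom_Lj, e]; simp
  have hRj : mom Rj x = 0 := by
    rw [mom_Rj, e]; simp
  have h0 : ang 0 (-1) = 0 := by unfold ang; norm_num
  have hy : flow Lj Ri 0 1 x = x := by
    rw [step2, hLj, hRi, h0]; simp [rot_zero]
  rw [M, hy, step1, hRj, hLi, h0]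
  simp only [mul_zero, Real.arctan_zero, add_zero, rot_zero]
  rw [e]
  ext j
  fin_cases j <;> simp [rot, P_apply, Li_apply] <;> ring

theorem degenerate : HasDegenerateFixedPoint lift := by
  have h0 : M (pt (-1) 0 0) = -(pt (-1) 0 0) := by
    have := M_on_line 0
    simpa using this
  refine ⟨pt (-1) 0 0, pt_mem (by norm_num), -1, ?_, wdir, ?_, ?_, 0, ?_⟩
  · rw [lift_one]
    show M _ = _
    rw [h0]; simp
  · constructor
    · simp [herm, Fin.sum_univ_five, wdir, pt_apply]
    · simp [Fin.sum_univ_five, wdir, pt_apply]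
  · intro r h
    have := congrFun h 2
    simp [wdir, pt_apply] at this
  · have hM : (fun x : V => lift.Ψ (1, x)) = M := by
      funext x; exact lift_one x
    rw [hM]
    have hdiff : DifferentiableAt ℝ M (pt (-1) 0 0) := by
      have : ContDiff ℝ (⊤ : ℕ∞) M := by
        unfold M
        exact contDiff_flow _ _ _ contDiff_const (contDiff_flow _ _ _ contDiff_const contDiff_id)
      exact this.differentiable (by simp) _
    have hl : HasDerivAt (fun s : ℝ => pt (-1) 0 0 + s • wdir) wdir 0 := by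
      simpa using ((hasDerivAt_id (0 : ℝ)).smul_const wdir).const_add (pt (-1) 0 0)
    have h1 : HasDerivAt (fun s : ℝ => M (pt (-1) 0 0 + s • wdir))
        (fderiv ℝ M (pt (-1) 0 0) wdir) 0 := by
      have h2 : HasFDerivAt M (fderiv ℝ M (pt (-1) 0 0)) (pt (-1) 0 0 + (0 : ℝ) • wdir) := by
        simpa using hdiff.hasFDerivAt
      have h5 := HasFDerivAt.comp_hasDerivAt (0 : ℝ) h2 hl
      exact h5
    have h3 : HasDerivAt (fun s : ℝ => M (pt (-1) 0 0 + s • wdir)) (-wdir) 0 := by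
      have : (fun s : ℝ => M (pt (-1) 0 0 + s • wdir)) = fun s : ℝ => -(pt (-1) 0 0 + s • wdir) := by
        funext s; exact M_on_line s
      rw [this]
      exact hl.neg
    rw [h1.unique h3]
    simp

end Crest.Agent.R205.Arc
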